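import Vale.Agent.P281.H969.TLN.Spec
import Vale.Agent.P281.H740.TL.FibL

/-!
# P281, project T-LN, block B8a: from the fibre `F` to `f⁻¹(y)` (after helper740)
-/

open Set Filter Metric MeasureTheory Vale.Agent.P281 Vale.Agent.P281.H713 Vale.Agent.P272.K
open Vale.Agent.P281.MF Vale.Agent.P281.ISO Vale.Agent.P281.H713.TZ
open Vale.Agent.P281.H969.TL Vale.Agent.P281.H740

open scoped Topology ContDiff Manifold

noncomputable section

namespace Vale.Agent.P281.H969.TLN

/-- **B8a**. -/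
theorem fibNStmt : FibNStmt := by
  intro p d r N X Y F _ _ _ _ _ _ _ _ _ _ f S 𝒟 a i y hd hf hS hP h𝒟 hDf hy hi hinj hL
  classical
  have : CompactSpace F := hi.compact
  have : ConnectedSpace F := hi.connected
  have : IsManifold 𝓘(ℂ, Cm d) ω F := hi.manifold
  have : Nonempty F := hi.connected.toNonempty
  have hn : Module.finrank ℂ (Cm (p + d)) = Module.finrank ℂ (Cm p) + Module.finrank ℂ (Cm d) := by
    simp
  have hsub : ∀ x, f x = y → Function.Surjective (mfderiv 𝓘(ℂ, Cm (p + d)) 𝓘(ℂ, Cm p) f x) :=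
    fun x hx => hP.submersive x (by rw [hx]; exact hy)
  obtain ⟨u, hu, x₀, hx₀, hl, hs⟩ := hL
  -- the function on `X`
  have hext : ∀ (s : Fin (r + 1)) (j : Fin N) (b : Fin d) (t : F),
      Function.extend i (u s j b) 0 (i t) = u s j b t :=
    fun s j b t => hinj.extend_apply _ _ _
  refine ⟨fun s j b => Function.extend i (u s j b) 0, fun s j b x hx e he => ?_,
    fun v => i ((chartAt (Cm d) x₀).symm v), chartAt (Cm d) x₀ x₀, ?_, ?_, ?_, ?_, ?_⟩
  · obtain ⟨t, rfl⟩ := surj_fib hn hf hi.hol hsub hi.immersion hi.fibre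
      (hP.connected y hy).isPreconnected hx
    obtain ⟨h, hh, hh0, hev⟩ := hu s j b t e he
    obtain ⟨ρ, hρ, hρt, hρf⟩ := exists_retr hn hf hi.hol (hsub _ (hi.fibre t)) (hi.immersion t)
      hi.fibre
    have hh' : ContMDiffAt 𝓘(ℂ, Cm d) 𝓘(ℂ, ℂ) ω h (ρ (i t)) := by rw [hρt]; exact hh
    have hev' : ∀ᶠ s' in 𝓝 (ρ (i t)), (∀ D ∈ 𝒟, i s' ∉ D) →
        u s j b s' = h s' * ∏ D ∈ 𝒟, e D (i s') ^ a s j b D := by rw [hρt]; exact hev
    refine ⟨fun z => h (ρ z), ContMDiffAt.comp (i t) (g := h) (f := ρ) hh' hρ, ?_, ?_⟩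
    · show h (ρ (i t)) ≠ 0
      rw [hρt]
      exact hh0
    · filter_upwards [hρf, hρ.continuousAt.eventually hev'] with z a1 a2 hz hz'
      have e1 := a1 hz
      rw [e1] at a2
      have e2 := a2 hz'
      show Function.extend i (u s j b) 0 z = _
      have e3 := hext s j b (ρ z)
      rw [e1] at e3
      rw [e3]
      exact e2
  · have h1 : ContMDiffAt 𝓘(ℂ, Cm d) 𝓘(ℂ, Cm d) ω (chartAt (Cm d) x₀).symm (chartAt (Cm d) x₀ x₀) :=
      (contMDiffOn_chart_symm (I := 𝓘(ℂ, Cm d)) (n := ω) (x := x₀)).contMDiffAt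
        ((chartAt (Cm d) x₀).open_target.mem_nhds (mem_chart_target (Cm d) x₀))
    exact ContMDiffAt.comp _ (g := i) (f := (chartAt (Cm d) x₀).symm) (hi.hol _) h1
  · exact Eventually.of_forall fun v => hi.fibre _
  · intro D hD
    show i ((chartAt (Cm d) x₀).symm (chartAt (Cm d) x₀ x₀)) ∉ D
    rw [(chartAt (Cm d) x₀).left_inv (mem_chart_source (Cm d) x₀)]
    exact hx₀ D hD
  · simp only [hext]
    exact hl
  · simp only [hext]
    exact hs

end Vale.Agent.P281.H969.TLN
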