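import Vale.Agent.P281.H969.TL.Spec

/-!
# P281, project T-LN (helper969): `N`-forms and fractional coefficients, statements

As T-L, with the products `∏_(i < N) dlog U_(i, 1) ∧ ⋯ ∧ dlog U_(i, d)`. Such a product has a pole of
order at most `#{i : D occurs in U_(i, 1), …, U_(i, d)}` along `D`. The only condition on the
coefficients of the boundary is that this number is at most `N * Δ D`.
-/

open Set Filter Metric MeasureTheory Vale.Agent.P281 Vale.Agent.P281.H713 Vale.Agent.P272.K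
open Vale.Agent.P281.MF Vale.Agent.P281.ISO Vale.Agent.P281.H713.TZ
open Vale.Agent.P281.H64.Thin (IsThinSet)
open Vale.Agent.P281.H64.Gen (IsSmallSet NoExc)
open Vale.Agent.P281.H64.TU (Tame KTame TameIn HasFormsT)
open Vale.Agent.P281.H969.TL

open scoped Topology ContDiff Manifold ComplexConjugate ComplexOrder ENNReal NNReal

noncomputable section

namespace Vale.Agent.P281.H969.TLN

/-- The coefficient of `∏_(i < N) dlog u_(i, 1) ∧ ⋯ ∧ dlog u_(i, d)`. -/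
def ncoef {N d : ℕ} (u : Fin N → Fin d → Cm d → ℂ) (v : Cm d) : ℂ := ∏ i, lcoef (u i) v

/-- The number of the factors in which `D` occurs. -/
def cnt {X : Type} {N d : ℕ} (a : Fin N → Fin d → Set X → ℤ) (D : Set X) : ℕ :=
  open scoped Classical in (Finset.univ.filter fun i => ∃ b, a i b D ≠ 0).card

section
variable {n : ℕ} {X Y : Type} [TopologicalSpace X] [ChartedSpace (Cm n) X]
  [TopologicalSpace Y]

/-- The rank of the map given by the `N`-forms, on the fibre over `y`, is at least `r` at some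
point. -/
def NRankAt (N d : ℕ) (f : X → Y) (𝒟 : Finset (Set X)) {r : ℕ}
    (a : Fin (r + 1) → Fin N → Fin d → Set X → ℤ) (y : Y) : Prop :=
  ∃ U : Fin (r + 1) → Fin N → Fin d → X → ℂ,
    (∀ s i b, IsUnitAt (Cm n) f 𝒟 (a s i b) y (U s i b)) ∧
    ∃ (q : Cm d → X) (v₀ : Cm d), ContMDiffAt 𝓘(ℂ, Cm d) 𝓘(ℂ, Cm n) ω q v₀ ∧
      (∀ᶠ v in 𝓝 v₀, f (q v) = y) ∧ (∀ D ∈ 𝒟, q v₀ ∉ D) ∧
      ncoef (fun i b v => U 0 i b (q v)) v₀ ≠ 0 ∧
      Function.Surjective fun (ξ : Cm d) (k : Fin r) =>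
        fderiv ℂ (fun v => ncoef (fun i b v => U k.succ i b (q v)) v /
          ncoef (fun i b v => U 0 i b (q v)) v) v₀ ξ

end

/-- **B7**: the forms. -/
def HasNStmt : Prop :=
  ∀ (p d r N : ℕ) (X Y : Type) [TopologicalSpace X] [T2Space X] [ChartedSpace (Cm (p + d)) X]
    [IsManifold 𝓘(ℂ, Cm (p + d)) ω X] [TopologicalSpace Y] [T2Space Y] [ChartedSpace (Cm p) Y]
    [IsManifold 𝓘(ℂ, Cm p) ω Y] (T : Tame (Cm d) X) (f : X → Y) (S : Set Y)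
    (𝒟 : Finset (Set X)) (a : Fin (r + 1) → Fin N → Fin d → Set X → ℤ)
    (e₀ : Cm (p + d) ≃L[ℂ] (Cm p × Cm d)) (Δ : Set X → ℝ), 0 < d → 0 < N →
    ContMDiff 𝓘(ℂ, Cm (p + d)) 𝓘(ℂ, Cm p) ω f → IsClosed S →
    H64.IsProperFibration (n := p + d) (p := p) f S →
    (∀ D ∈ 𝒟, J.IsPrime (Cm (p + d)) D) → (∀ D ∈ 𝒟, ∀ y ∉ S, ¬ f ⁻¹' {y} ⊆ D) →
    (∀ D, 0 ≤ Δ D) → (∀ D ∈ 𝒟, ∀ s, (cnt (a s) D : ℝ) ≤ N * Δ D) →
    (∀ s i b, ∀ y₀ ∉ S, ∃ (W : Set Y) (U : X → ℂ), IsOpen W ∧ y₀ ∈ W ∧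
      IsUnitOn (Cm (p + d)) f 𝒟 (a s i b) W U) →
    (∀ s i b, ∀ ρ K : ℝ, 0 < ρ → 0 < K → ∃ B : ℝ, ∀ (y : Y) (U : X → ℂ), y ∉ S →
      IsUnitAt (Cm (p + d)) f 𝒟 (a s i b) y U → ∀ (q : Cm d → X) (v₀ : Cm d),
      IsPolydisc (Cm (p + d)) f q v₀ ρ → T K q v₀ ρ → f (q v₀) = y →
      (∀ v ∈ ball v₀ ρ, ∀ D ∈ 𝒟, q v ∉ D) →
      ‖fderiv ℂ (fun v => U (q v)) v₀‖ ≤ B * ‖U (q v₀)‖) →
    ∀ y ∉ S, NRankAt (n := p + d) N d f 𝒟 a y → HasFormsT T f S e₀ Δ r y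

/-- The map of `F` given by the `N`-forms `∏_i dlog u_(s, i, 1) ∧ ⋯ ∧ dlog u_(s, i, d)`, `s ≤ r`, for
the units with the divisors `∑ a s i b D (D|F)`, has rank at least `r`. -/
def NGaussRank (n N d : ℕ) {X F : Type} [TopologicalSpace X] [ChartedSpace (Cm n) X]
    [TopologicalSpace F] [ChartedSpace (Cm d) F] (i : F → X) (𝒟 : Finset (Set X)) {r : ℕ}
    (a : Fin (r + 1) → Fin N → Fin d → Set X → ℤ) : Prop :=
  ∃ u : Fin (r + 1) → Fin N → Fin d → F → ℂ, (∀ s j b, IsUnitF n d i 𝒟 (a s j b) (u s j b)) ∧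
    ∃ x : F, (∀ D ∈ 𝒟, i x ∉ D) ∧
      ncoef (fun j b v => u 0 j b ((chartAt (Cm d) x).symm v)) (chartAt (Cm d) x x) ≠ 0 ∧
      Function.Surjective fun (ξ : Cm d) (k : Fin r) =>
        fderiv ℂ (fun v => ncoef (fun j b v => u k.succ j b ((chartAt (Cm d) x).symm v)) v /
          ncoef (fun j b v => u 0 j b ((chartAt (Cm d) x).symm v)) v) (chartAt (Cm d) x x) ξ

/-- **B8a**: from the fibre `F` (compact, immersed injectively) to `f⁻¹(y)`. -/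
def FibNStmt : Prop :=
  ∀ (p d r N : ℕ) (X Y F : Type) [TopologicalSpace X] [T2Space X] [ChartedSpace (Cm (p + d)) X]
    [IsManifold 𝓘(ℂ, Cm (p + d)) ω X] [TopologicalSpace Y] [T2Space Y] [ChartedSpace (Cm p) Y]
    [IsManifold 𝓘(ℂ, Cm p) ω Y] [TopologicalSpace F] [ChartedSpace (Cm d) F] (f : X → Y)
    (S : Set Y) (𝒟 : Finset (Set X)) (a : Fin (r + 1) → Fin N → Fin d → Set X → ℤ) (i : F → X)
    (y : Y),
    0 < d → ContMDiff 𝓘(ℂ, Cm (p + d)) 𝓘(ℂ, Cm p) ω f → IsClosed S →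
    H64.IsProperFibration (n := p + d) (p := p) f S →
    (∀ D ∈ 𝒟, J.IsPrime (Cm (p + d)) D) → (∀ D ∈ 𝒟, ∀ y ∉ S, ¬ f ⁻¹' {y} ⊆ D) → y ∉ S →
    H511.Surf.IsFibre (Cm (p + d)) (Cm d) f y i → Function.Injective i →
    NGaussRank (p + d) N d i 𝒟 a → NRankAt (n := p + d) N d f 𝒟 a y

/-- **T-LN**, the goal. -/
def TLNStmt : Prop :=
  ∀ (p d r N : ℕ) (X Y : Type) [TopologicalSpace X] [ChartedSpace (Cm (p + d)) X]
    [TopologicalSpace Y] [ChartedSpace (Cm p) Y] (f : X → Y) (Δ : Set X → ℝ)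
    (a : Fin (r + 1) → Fin N → Fin d → Set X → ℤ), 0 < d → 0 < N →
    H511.Surf.IsFibration (Cm (p + d)) (Cm p) f Δ →
    (∃ w : Chart (p + d) X → Cm (p + d) → Matrix (Fin (p + d)) (Fin (p + d)) ℂ, IsKahler w) →
    ∀ 𝒟 : Finset (Set X), (∀ D ∈ 𝒟, Δ D ≠ 0 ∧ ∀ s, (cnt (a s) D : ℝ) ≤ N * Δ D) →
    ∀ H₀ : ℕ → Set Y, (∀ k, IsThinSet (Cm p) (H₀ k)) → (∀ y, (∀ k, y ∉ H₀ k) →
      ∃ (F : Type) (_ : TopologicalSpace F) (_ : ChartedSpace (Cm d) F) (i : F → X),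
        H511.Surf.IsFibre (Cm (p + d)) (Cm d) f y i ∧ Function.Injective i ∧
        NGaussRank (p + d) N d i 𝒟 a) →
    ∃ H : ℕ → Set Y, (∀ k, IsThinSet (Cm p) (H k)) ∧ ∀ y, (∀ k, y ∉ H k) →
      ∀ (F : Type) [TopologicalSpace F] [ChartedSpace (Cm d) F] (i : F → X),
        H511.Surf.IsFibre (Cm (p + d)) (Cm d) f y i →
        ((r : ℕ∞) : WithBot ℕ∞) + TZ.S.kodF (p + d) p Δ (id : X → X) f ≤
            TZ.S.kodX (Cm (p + d)) Δ ∧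
          (TZ.S.kodR (Cm (p + d)) (Cm d) i Δ ≤ ((r : ℕ∞) : WithBot ℕ∞) →
            TZ.S.kodR (Cm (p + d)) (Cm d) i Δ + TZ.S.kodF (p + d) p Δ (id : X → X) f ≤
              TZ.S.kodX (Cm (p + d)) Δ ∧
            (NoExc (Cm (p + d)) (Cm p) f → H511.Surf.Q1 (Cm (p + d)) (Cm p) (Cm d) f Δ i))

end Vale.Agent.P281.H969.TLN
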