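import Vale.Agent.P281.H969.TLN.Core
import Vale.Agent.P281.H969.TLN.FibN
import Vale.Agent.P281.H969.TL.Fin

/-!
# P281, project T-LN (helper969): everything plugged
-/

open Set Filter Metric Vale.Agent.P281 Vale.Agent.P281.H713
open scoped Topology ContDiff Manifold

noncomputable section

namespace Vale.Agent.P281.H969.TLN

/-- **T-LN** -/
theorem tln : TLNStmt :=
  tln_of TL.crit H383.Gen.compl H364.TD.fibIn H383.U.liftT H383.U.tameOK fibNStmt TL.famU TL.bound

end Vale.Agent.P281.H969.TLN
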