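import Vale.Agent.P281.H969.TLN.Spec
import Vale.Agent.P281.H969.TL.Rank

/-!
# P281, project T-LN (helper969), block B7: the products of `N` forms
-/

open scoped Manifold ContDiff Topology
open Set Filter Metric Module

namespace Vale.Agent.P281.H969.TLN

open Vale.Agent.P281 Vale.Agent.P281.MF Vale.Agent.P281.ISO Vale.Agent.P281.ELL
open Vale.Agent.P281.H713 Vale.Agent.P281.H64.TU Vale.Agent.P281.H969.TL

set_option linter.unusedSectionVars false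

section Has

variable {E E' : Type} [NormedAddCommGroup E] [NormedSpace ℂ E] [FiniteDimensional ℂ E]
  [NormedAddCommGroup E'] [NormedSpace ℂ E'] [FiniteDimensional ℂ E']
variable {X Y : Type} [TopologicalSpace X] [ChartedSpace E X] [IsManifold 𝓘(ℂ, E) ω X]
  [TopologicalSpace Y] [ChartedSpace E' Y] [IsManifold 𝓘(ℂ, E') ω Y] {d : ℕ}
variable {f : X → Y} {S : Set Y} {𝒟 : Finset (Set X)}

/-- holomorphy, with the divisors which occur -/
theorem theta_hol' (hL : LFam E E' f S 𝒟) (e₀ : E ≃L[ℂ] (E' × (Fin d → ℂ)))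
    {a : Fin d → Set X → ℤ} {W : Fin d → Y → Set Y} {U : Fin d → Y → X → ℂ}
    (hU : ∀ b, ∀ y ∉ S, IsOpen (W b y) ∧ y ∈ W b y ∧ IsUnitOn E f 𝒟 (a b) (W b y) (U b y))
    {x₀ x : X} {y₀ : Y} (hx : f x ∉ S) (hx₀ : x ∈ (chartAt E x₀).source)
    (hy₀ : f x ∈ (chartAt E' y₀).source) {e : Set X → X → ℂ}
    (he : ∀ D ∈ 𝒟, J.IsLocalEq E D (e D) x) {𝒟' : Finset (Set X)} (h𝒟' : 𝒟' ⊆ 𝒟)
    (ha : ∀ D ∈ 𝒟, D ∉ 𝒟' → ∀ b, a b D = 0) :
    ∃ H : X → ℂ, HolV E H x ∧ ∀ᶠ z in 𝓝 x, (∀ D ∈ 𝒟, z ∉ D) →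
      jac E' (chartAt E' y₀) (f z) * theta E E' f e₀ U z * ∏ D ∈ 𝒟', e D z =
        H z * jac E (chartAt E x₀) z := by
  have h0 : ∀ (b : Fin d) (z : X), ∏ D ∈ 𝒟, e D z ^ a b D = ∏ D ∈ 𝒟', e D z ^ a b D := by
    intro b z
    refine (Finset.prod_subset h𝒟' fun D hD hD' => ?_).symm
    rw [ha D hD hD' b, zpow_zero]
  have h1 : ∀ b, ∃ h : X → ℂ, HolV E h x ∧ h x ≠ 0 ∧ ∀ᶠ z in 𝓝 x, (∀ D ∈ 𝒟, z ∉ D) →
      U b (f x) z = h z * ∏ D ∈ 𝒟', e D z ^ a b D := by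
    intro b
    obtain ⟨h, h2, h3, h4⟩ := (hU b _ hx).2.2 x (hU b _ hx).2.1 e he
    refine ⟨h, h2, h3, ?_⟩
    filter_upwards [h4] with z h5 h6
    rw [h5 h6, h0]
  choose h hh1 hh2 hh3 using h1
  obtain ⟨H, hH, hHe⟩ := hol_log hL.hol e₀ hx₀ hy₀ (fun D hD => he D (h𝒟' hD))
    (fun b => ⟨hh1 b, hh2 b⟩) a
  refine ⟨H, hH, ?_⟩
  have h2 : ∀ᶠ z in 𝓝 x, ∀ b, f z ∈ W b (f x) :=
    eventually_all.2 fun b => (hL.hol x).continuousAt.eventually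
      ((hU b _ hx).1.mem_nhds (hU b _ hx).2.1)
  have h3 : ∀ᶠ z in 𝓝 x, f z ∉ S :=
    (hL.hol x).continuousAt.eventually (hL.closed.isOpen_compl.mem_nhds hx)
  filter_upwards [hHe, h2, h3, eventually_eventually_nhds.2 (eventually_all.2 hh3)]
    with z h4 h5 h6 h7 h8
  rw [← h4 fun D hD => h8 D (h𝒟' hD)]
  have h9 := hL.theta_eq e₀ hU h6 h8 (W' := fun b => W b (f x)) (U' := fun b => U b (f x))
    fun b => ⟨h5 b, (hU b _ hx).2.2⟩
  have h10 : ∀ b, dl E (U b (f x)) z = dl E (fun z => h b z * ∏ D ∈ 𝒟', e D z ^ a b D) z := by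
    intro b
    refine dl_congr ?_
    filter_upwards [h7, hL.off h8] with w h11 h12
    exact h11 b h12
  rw [h9]
  have h11 : (fun b => dl E (U b (f x)) z) =
      fun b => dl E (fun z => h b z * ∏ D ∈ 𝒟', e D z ^ a b D) z := funext h10
  rw [h11]

/-- the `N`-form -/
noncomputable def nTheta (E E' : Type) [NormedAddCommGroup E] [NormedSpace ℂ E]
    [NormedAddCommGroup E'] [NormedSpace ℂ E']
    {X Y : Type} [TopologicalSpace X] [ChartedSpace E X] [TopologicalSpace Y] [ChartedSpace E' Y]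
    (f : X → Y) (e₀ : E ≃L[ℂ] (E' × (Fin d → ℂ))) {N : ℕ} (U : Fin N → Fin d → Y → X → ℂ)
    (x : X) : ℂ :=
  ∏ i, theta E E' f e₀ (U i) x

/-- the divisors of a factor -/
noncomputable def supp (𝒟 : Finset (Set X)) (a : Fin d → Set X → ℤ) : Finset (Set X) :=
  open scoped Classical in 𝒟.filter fun D => ∃ b, a b D ≠ 0

theorem prod_supp {N : ℕ} (a : Fin N → Fin d → Set X → ℤ) (g : Set X → ℂ) :
    ∏ i, ∏ D ∈ supp 𝒟 (a i), g D = ∏ D ∈ 𝒟, g D ^ cnt a D := by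
  classical
  have h1 : ∀ i, ∏ D ∈ supp 𝒟 (a i), g D =
      ∏ D ∈ 𝒟, if ∃ b, a i b D ≠ 0 then g D else 1 := by
    intro i
    unfold supp
    rw [Finset.prod_filter]
  rw [Finset.prod_congr rfl fun i _ => h1 i, Finset.prod_comm]
  refine Finset.prod_congr rfl fun D _ => ?_
  rw [← Finset.prod_filter, Finset.prod_const]
  rfl

/-- The pole orders. -/
noncomputable def kapN (𝒟 : Finset (Set X)) {r N : ℕ}
    (a : Fin (r + 1) → Fin N → Fin d → Set X → ℤ) (D : Set X) : ℕ :=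
  open scoped Classical in if D ∈ 𝒟 then Finset.univ.sup fun s => cnt (a s) D else 0

theorem cnt_le_kapN {r N : ℕ} (a : Fin (r + 1) → Fin N → Fin d → Set X → ℤ) {D : Set X}
    (hD : D ∈ 𝒟) (s : Fin (r + 1)) : cnt (a s) D ≤ kapN 𝒟 a D := by
  classical
  unfold kapN
  rw [if_pos hD]
  exact Finset.le_sup (f := fun s => cnt (a s) D) (Finset.mem_univ s)

theorem kapN_le {r N : ℕ} (a : Fin (r + 1) → Fin N → Fin d → Set X → ℤ) {Δ : Set X → ℝ}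
    (hΔ : ∀ D, 0 ≤ Δ D) (h : ∀ D ∈ 𝒟, ∀ s, (cnt (a s) D : ℝ) ≤ N * Δ D) (D : Set X) :
    (kapN 𝒟 a D : ℝ) ≤ N * Δ D := by
  classical
  unfold kapN
  split_ifs with hD
  · obtain ⟨s, -, hs⟩ := Finset.exists_mem_eq_sup Finset.univ Finset.univ_nonempty
      fun s => cnt (a s) D
    rw [hs]
    exact h D hD s
  · rw [Nat.cast_zero]
    exact mul_nonneg (Nat.cast_nonneg _) (hΔ D)

theorem nTheta_hol (hL : LFam E E' f S 𝒟) (e₀ : E ≃L[ℂ] (E' × (Fin d → ℂ))) {N : ℕ}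
    {a : Fin N → Fin d → Set X → ℤ} {W : Fin N → Fin d → Y → Set Y}
    {U : Fin N → Fin d → Y → X → ℂ}
    (hU : ∀ i b, ∀ y ∉ S, IsOpen (W i b y) ∧ y ∈ W i b y ∧
      IsUnitOn E f 𝒟 (a i b) (W i b y) (U i b y))
    {x₀ x : X} {y₀ : Y} (hx : f x ∉ S) (hx₀ : x ∈ (chartAt E x₀).source)
    (hy₀ : f x ∈ (chartAt E' y₀).source) {e : Set X → X → ℂ}
    (he : ∀ D ∈ 𝒟, J.IsLocalEq E D (e D) x) :
    ∃ H : X → ℂ, HolV E H x ∧ ∀ᶠ z in 𝓝 x, (∀ D ∈ 𝒟, z ∉ D) →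
      jac E' (chartAt E' y₀) (f z) ^ N * nTheta E E' f e₀ U z * ∏ D ∈ 𝒟, e D z ^ cnt a D =
        H z * jac E (chartAt E x₀) z ^ N := by
  classical
  have h1 : ∀ i, ∃ H : X → ℂ, HolV E H x ∧ ∀ᶠ z in 𝓝 x, (∀ D ∈ 𝒟, z ∉ D) →
      jac E' (chartAt E' y₀) (f z) * theta E E' f e₀ (U i) z * ∏ D ∈ supp 𝒟 (a i), e D z =
        H z * jac E (chartAt E x₀) z := by
    intro i
    refine theta_hol' hL e₀ (a := a i) (W := W i) (U := U i) (fun b y hy => hU i b y hy) hx hx₀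
      hy₀ he ?_ ?_
    · unfold supp
      exact Finset.filter_subset _ _
    · intro D hD hD' b
      by_contra hb
      refine hD' ?_
      unfold supp
      exact Finset.mem_filter.2 ⟨hD, b, hb⟩
  choose H hH hHe using h1
  refine ⟨fun z => ∏ i, H i z, HolV.prod fun i _ => hH i, ?_⟩
  filter_upwards [eventually_all.2 hHe] with z h2 h3
  rw [← prod_supp a fun D => e D z]
  have h4 : ∀ c : ℂ, c ^ N = ∏ _i : Fin N, c := fun c => by simp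
  unfold nTheta
  rw [h4, h4, ← Finset.prod_mul_distrib, ← Finset.prod_mul_distrib, ← Finset.prod_mul_distrib]
  exact Finset.prod_congr rfl fun i _ => h2 i h3

theorem nrelForm (hL : LFam E E' f S 𝒟) (e₀ : E ≃L[ℂ] (E' × (Fin d → ℂ))) {r N : ℕ}
    {a : Fin (r + 1) → Fin N → Fin d → Set X → ℤ} (s : Fin (r + 1))
    {W : Fin N → Fin d → Y → Set Y} {U : Fin N → Fin d → Y → X → ℂ}
    (hU : ∀ i b, ∀ y ∉ S, IsOpen (W i b y) ∧ y ∈ W i b y ∧
      IsUnitOn E f 𝒟 (a s i b) (W i b y) (U i b y))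
    {𝒯 : Tame (Fin d → ℂ) X}
    (hB : ∀ i b, ∀ ρ K : ℝ, 0 < ρ → 0 < K → ∃ B : ℝ, ∀ (y : Y) (U : X → ℂ), y ∉ S →
      IsUnitAt E f 𝒟 (a s i b) y U → ∀ (q : (Fin d → ℂ) → X) (v₀ : Fin d → ℂ),
      IsPolydisc E f q v₀ ρ → 𝒯 K q v₀ ρ → f (q v₀) = y →
      (∀ v ∈ ball v₀ ρ, ∀ D ∈ 𝒟, q v ∉ D) →
      ‖fderiv ℂ (fun v => U (q v)) v₀‖ ≤ B * ‖U (q v₀)‖) :
    RelFormT 𝒯 f S e₀ N (𝒟 : Set (Set X)) (kapN 𝒟 a) (nTheta E E' f e₀ U) where
  hol := by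
    intro x₀ x y₀ hx hx₀ hy₀ T e hT he
    classical
    have h0 : ∀ D, ∃ g : X → ℂ, (D ∈ T → g = e D) ∧ (D ∈ 𝒟 → J.IsLocalEq E D g x) := by
      intro D
      by_cases hDT : D ∈ T
      · exact ⟨e D, fun _ => rfl, fun _ => he D hDT⟩
      · by_cases hD : D ∈ 𝒟
        · obtain ⟨g, hg⟩ := (hL.prime D hD).2.1 x
          exact ⟨g, fun h => absurd h hDT, fun _ => hg⟩
        · exact ⟨fun _ => 0, fun h => absurd h hDT, fun h => absurd h hD⟩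
    choose e' he' hle using h0
    obtain ⟨H, hH, hHe⟩ := nTheta_hol hL e₀ (a := a s) hU hx hx₀ hy₀ hle
    have hehol : ∀ D ∈ 𝒟, HolV E (e' D) x := by
      intro D hD
      obtain ⟨V, -, hxV, h1, -⟩ := hle D hD
      exact h1 x hxV
    refine ⟨fun z => H z * ∏ D ∈ 𝒟, e' D z ^ (kapN 𝒟 a D - cnt (a s) D),
      hH.mul (HolV.prod fun D hD => HolV.pow (hehol D hD) _), ?_⟩
    filter_upwards [hHe] with z h2 h3 _
    have h4 := h2 fun D hD => h3 D (Finset.mem_coe.2 hD)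
    have h5 : ∏ D ∈ T, e D z ^ kapN 𝒟 a D = ∏ D ∈ 𝒟, e' D z ^ kapN 𝒟 a D := by
      have h6 : ∏ D ∈ T, e D z ^ kapN 𝒟 a D = ∏ D ∈ T ∪ 𝒟, e' D z ^ kapN 𝒟 a D := by
        rw [← Finset.prod_subset (Finset.subset_union_left (s₁ := T) (s₂ := 𝒟))
          (f := fun D => e' D z ^ kapN 𝒟 a D)]
        · exact Finset.prod_congr rfl fun D hD => by rw [he' D hD]
        · intro D _ hD
          have h7 : kapN 𝒟 a D = 0 := by
            by_contra h8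
            exact hD (hT D h8)
          rw [h7, pow_zero]
      rw [h6, ← Finset.prod_subset (Finset.subset_union_right (s₁ := T) (s₂ := 𝒟))
          (f := fun D => e' D z ^ kapN 𝒟 a D)]
      intro D _ hD
      unfold kapN
      rw [if_neg hD, pow_zero]
    have h6 : ∏ D ∈ 𝒟, e' D z ^ kapN 𝒟 a D = (∏ D ∈ 𝒟, e' D z ^ cnt (a s) D) *
        ∏ D ∈ 𝒟, e' D z ^ (kapN 𝒟 a D - cnt (a s) D) := by
      rw [← Finset.prod_mul_distrib]
      refine Finset.prod_congr rfl fun D hD => ?_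
      rw [← pow_add, Nat.add_sub_cancel' (cnt_le_kapN a hD s)]
    rw [h5, h6, ← mul_assoc, h4]
    ring
  bound := by
    intro ρ K hρ hK
    have h1 := fun i => hL.theta_bound e₀ (a := a s i) (W := W i) (U := U i)
      (fun b y hy => hU i b y hy) (fun b => hB i b ρ K hρ hK) hρ
    choose C hC using h1
    refine ⟨∏ i, C i, fun v₀ Q h1 h2 h3 h4 h5 h6 P hP => ?_⟩
    unfold nTheta
    rw [norm_prod, norm_pow]
    have h7 : (∏ i, C i) * ‖JP e₀ (dM E E' f (Q v₀)) P‖ ^ N =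
        ∏ i, (C i * ‖JP e₀ (dM E E' f (Q v₀)) P‖) := by
      rw [Finset.prod_mul_distrib]
      congr 1
      simp
    rw [h7]
    refine Finset.prod_le_prod (fun i _ => norm_nonneg _) fun i _ => ?_
    have h8 := hC i v₀ Q h1 h2 h3 h4 h5 h6 P hP
    rwa [pow_one] at h8

end Has

end Vale.Agent.P281.H969.TLN
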