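import Vale.Agent.P281.H969.TLN.Has

/-!
# P281, project T-LN (helper969), block B7: the rank
-/

open scoped Manifold ContDiff Topology
open Set Filter Metric Module

namespace Vale.Agent.P281.H969.TLN

open Vale.Agent.P281 Vale.Agent.P281.MF Vale.Agent.P281.ISO Vale.Agent.P281.ELL
open Vale.Agent.P281.H713 Vale.Agent.P281.H64.TU Vale.Agent.P281.H969.TL Vale.Agent.P272.K

set_option linter.unusedSectionVars false

section Rk

variable {n p d r N : ℕ} {X Y : Type} [TopologicalSpace X] [ChartedSpace (Cm n) X]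
  [IsManifold 𝓘(ℂ, Cm n) ω X] [TopologicalSpace Y] [ChartedSpace (Cm p) Y]
  [IsManifold 𝓘(ℂ, Cm p) ω Y] {f : X → Y} {S : Set Y} {𝒟 : Finset (Set X)}

/-- continuity of the coefficients -/
theorem lcoef_cont {q : Cm d → X} {v₀ : Cm d} (hq : ContMDiffAt 𝓘(ℂ, Cm d) 𝓘(ℂ, Cm n) ω q v₀)
    {U : Fin d → X → ℂ} (hU : ∀ b, HolV (Cm n) (U b) (q v₀) ∧ U b (q v₀) ≠ 0) :
    ContinuousAt (fun v => lcoef (fun b v => U b (q v)) v) v₀ := by
  have h2 : ∀ b, ContDiffAt ℂ ω (fun v => U b (q v)) v₀ := fun b =>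
    (slice_fderiv hq (hU b).1).1
  have h4 : ∀ b k, ContinuousAt (fun v => fderiv ℂ (fun v => U b (q v)) v
      (Pi.single k 1) / U b (q v)) v₀ := by
    intro b k
    have h5 : ContinuousAt (fderiv ℂ (fun v => U b (q v))) v₀ :=
      ((h2 b).fderiv_right (m := 0) (by simp)).continuousAt
    exact (h5.clm_apply continuousAt_const).div (h2 b).continuousAt (hU b).2
  have h5 : ContinuousAt (fun v => Matrix.of fun b k => fderiv ℂ (fun v => U b (q v)) v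
      (Pi.single k 1) / U b (q v)) v₀ :=
    continuousAt_pi.2 fun b => continuousAt_pi.2 fun k => h4 b k
  exact (Continuous.matrix_det (A := fun M : Matrix (Fin d) (Fin d) ℂ => M)
    continuous_id).continuousAt.comp h5

/-- From the rank of the forms of the fibre to the rank of the forms of the family. -/
theorem nrk_of (hL : LFam (Cm n) (Cm p) f S 𝒟) (hN : 0 < N)
    (e₀ : Cm n ≃L[ℂ] (Cm p × (Fin d → ℂ)))
    {a : Fin (r + 1) → Fin N → Fin d → Set X → ℤ} {W : Fin (r + 1) → Fin N → Fin d → Y → Set Y}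
    {U : Fin (r + 1) → Fin N → Fin d → Y → X → ℂ}
    (hU : ∀ s i b, ∀ y ∉ S, IsOpen (W s i b y) ∧ y ∈ W s i b y ∧
      IsUnitOn (Cm n) f 𝒟 (a s i b) (W s i b y) (U s i b y))
    {y : Y} (hy : y ∉ S) (hrank : NRankAt (n := n) N d f 𝒟 a y) :
    ∃ x₁, f x₁ = y ∧ (∀ D ∈ 𝒟, x₁ ∉ D) ∧
      RKAt (Cm n) (Cm p) f (fun s => nTheta (Cm n) (Cm p) f e₀ (U s)) x₁ := by
  classical
  have hf := hL.hol
  have h𝒟c : ∀ D ∈ 𝒟, IsClosed D := fun D hD => (hL.prime D hD).1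
  obtain ⟨u, hu, q, v₀, hq, hfq, hq𝒟, hlc, hsurj⟩ := hrank
  have hc : ∀ s i b, ∃ c : ℂ, c ≠ 0 ∧ ∀ z, f z = y → (∀ D ∈ 𝒟, z ∉ D) →
      u s i b z = c * U s i b y z := fun s i b =>
    hL.unique e₀ hy (hu s i b) ((hU s i b y hy).2.2.at (hU s i b y hy).2.1)
  choose c hc0 hcu using hc
  have hqt : Tendsto q (𝓝 v₀) (𝓝 (q v₀)) := hq.continuousAt
  have hq' : ∀ᶠ v in 𝓝 v₀, ContMDiffAt 𝓘(ℂ, Cm d) 𝓘(ℂ, Cm n) ω q v :=
    (contMDiffAt_iff_contMDiffAt_nhds (by simp)).1 hq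
  have hgood : ∀ᶠ v in 𝓝 v₀, ContMDiffAt 𝓘(ℂ, Cm d) 𝓘(ℂ, Cm n) ω q v ∧
      f (q v) = y ∧ ∀ D ∈ 𝒟, q v ∉ D := by
    filter_upwards [hq', hfq, hqt.eventually (hL.off hq𝒟)] with v h1 h2 h3
    exact ⟨h1, h2, h3⟩
  set ℓ : Fin (r + 1) → Fin N → Cm d → ℂ :=
    fun s i v => lcoef (fun b v => U s i b y (q v)) v with hℓ
  have hℓu : ∀ᶠ v in 𝓝 v₀, ∀ s, ncoef (fun i b v => u s i b (q v)) v = ∏ i, ℓ s i v := by
    filter_upwards [eventually_eventually_nhds.2 hgood] with v hv s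
    refine Finset.prod_congr rfl fun i _ => ?_
    show Matrix.det _ = Matrix.det _
    congr 1
    ext b k
    exact hL.lcoef_eq (hU s i b y hy).2.1 (hU s i b y hy).2.2 (hc0 s i b) (hcu s i b) hv _
  have hfx₁ : f (q v₀) = y := hfq.self_of_nhds
  have hℓ0 : ∏ i, ℓ 0 i v₀ ≠ 0 := by
    rw [← hℓu.self_of_nhds 0]
    exact hlc
  let i₀ : Fin N := ⟨0, hN⟩
  have hℓ00 : ℓ 0 i₀ v₀ ≠ 0 := (Finset.prod_ne_zero_iff.1 hℓ0) i₀ (Finset.mem_univ _)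
  have hℓc : ContinuousAt (ℓ 0 i₀) v₀ :=
    lcoef_cont hq fun b => (hU 0 i₀ b y hy).2.2.hol h𝒟c
      (by rw [hfx₁]; exact (hU 0 i₀ b y hy).2.1) hq𝒟
  have hval : ∀ᶠ v in 𝓝 v₀, ∃ J : ℂ, J ≠ 0 ∧ ∀ s,
      nTheta (Cm n) (Cm p) f e₀ (U s) (q v) = (∏ i, ℓ s i v) * J := by
    filter_upwards [eventually_eventually_nhds.2 hgood, hℓc.eventually_ne hℓ00] with v hv h2
    obtain ⟨h3, h4, h5⟩ := hv.self_of_nhds
    have h6 : ∀ᶠ z in 𝓝 v, f (q z) = f (q v) := by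
      filter_upwards [hv] with z hz
      rw [hz.2.1, h4]
    obtain ⟨P, hP, hP0⟩ := hL.exists_frame e₀ (a := a 0 i₀) (W := W 0 i₀) (U := U 0 i₀)
      (fun b y hy => hU 0 i₀ b y hy) h3 h6 h4 hy h5 h2
    refine ⟨_, pow_ne_zero N hP0, fun s => ?_⟩
    unfold nTheta
    have h7 : JP e₀ (dM (Cm n) (Cm p) f (q v)) P ^ N =
        ∏ _i : Fin N, JP e₀ (dM (Cm n) (Cm p) f (q v)) P := by simp
    rw [h7, ← Finset.prod_mul_distrib]
    refine Finset.prod_congr rfl fun i _ => ?_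
    rw [hL.theta_slice e₀ (a := a s i) (W := W s i) (U := U s i) (fun b y hy => hU s i b y hy)
      h3 h6 h4 hy h5 hP, lrow_det]
  set x₁ := q v₀ with hx₁
  have hx₁S : f x₁ ∉ S := by rw [hfx₁]; exact hy
  obtain ⟨J₁, hJ₁, hJe₁⟩ := hval.self_of_nhds
  have h2 : ∀ s, ∃ H : X → ℂ, HolV (Cm n) H x₁ ∧ ∀ᶠ z in 𝓝 x₁, (∀ D ∈ 𝒟, z ∉ D) →
      jac (Cm p) (chartAt (Cm p) (f x₁)) (f z) ^ N * nTheta (Cm n) (Cm p) f e₀ (U s) z *
        ∏ D ∈ 𝒟, (1 : ℂ) ^ cnt (a s) D = H z * jac (Cm n) (chartAt (Cm n) x₁) z ^ N := fun s =>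
    nTheta_hol hL e₀ (a := a s) (W := W s) (U := U s) (fun i b y hy => hU s i b y hy) hx₁S
      (mem_chart_source _ x₁) (mem_chart_source _ (f x₁))
      (e := fun _ _ => 1) fun D hD => localEq_one (h𝒟c D hD) (hq𝒟 D hD)
  choose H hH hHe using h2
  have hone : ∀ s, ∏ D ∈ 𝒟, (1 : ℂ) ^ cnt (a s) D = 1 := fun s => by simp
  have hjX : ∀ᶠ z in 𝓝 x₁, jac (Cm n) (chartAt (Cm n) x₁) z ≠ 0 := by
    filter_upwards [(chartAt (Cm n) x₁).open_source.mem_nhds (mem_chart_source _ x₁)]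
      with z hz
    exact jac_chart_ne_zero hz
  have hjY : ∀ᶠ z in 𝓝 x₁, jac (Cm p) (chartAt (Cm p) (f x₁)) (f z) ≠ 0 := by
    filter_upwards [(hf x₁).continuousAt.eventually ((chartAt (Cm p) (f x₁)).open_source.mem_nhds
      (mem_chart_source _ (f x₁)))] with z hz
    exact jac_chart_ne_zero hz
  have hH0 : H 0 x₁ ≠ 0 := by
    intro h0
    have h3 := (hHe 0).self_of_nhds hq𝒟
    rw [h0, zero_mul, hone, mul_one, hx₁, hJe₁ 0] at h3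
    exact (mul_ne_zero (pow_ne_zero _ hjY.self_of_nhds) (mul_ne_zero hℓ0 hJ₁)) h3
  have hev : ∀ᶠ z in 𝓝 x₁, nTheta (Cm n) (Cm p) f e₀ (U 0) z ≠ 0 ∧
      ∀ s, nTheta (Cm n) (Cm p) f e₀ (U s) z /
        nTheta (Cm n) (Cm p) f e₀ (U 0) z = H s z / H 0 z := by
    filter_upwards [eventually_all.2 hHe, hjX, hjY, (hH 0).continuousAt.eventually_ne hH0,
      hL.off hq𝒟] with z h3 h4 h5 h6 h7
    have h5' := pow_ne_zero N h5
    have h8 : ∀ s, nTheta (Cm n) (Cm p) f e₀ (U s) z =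
        H s z * (jac (Cm n) (chartAt (Cm n) x₁) z ^ N /
          jac (Cm p) (chartAt (Cm p) (f x₁)) (f z) ^ N) := by
      intro s
      have h9 := h3 s h7
      rw [hone, mul_one] at h9
      rw [← mul_div_assoc, ← h9, mul_div_cancel_left₀ _ h5']
    have h9 : jac (Cm n) (chartAt (Cm n) x₁) z ^ N /
          jac (Cm p) (chartAt (Cm p) (f x₁)) (f z) ^ N ≠ 0 := div_ne_zero (pow_ne_zero N h4) h5'
    refine ⟨by rw [h8 0]; exact mul_ne_zero h6 h9, fun s => ?_⟩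
    rw [h8 s, h8 0, mul_div_mul_right _ _ h9]
  have hratio : ∀ s, HolV (Cm n) (fun z => nTheta (Cm n) (Cm p) f e₀ (U s) z /
      nTheta (Cm n) (Cm p) f e₀ (U 0) z) x₁ := fun s =>
    ((hH s).div (hH 0) hH0).congr (hev.mono fun z hz => hz.2 s)
  refine ⟨x₁, hfx₁, hq𝒟, hev.mono fun z hz => hz.1, hratio, ?_⟩
  intro α hα k₀
  obtain ⟨η, hη⟩ := hsurj (Pi.single k₀ 1)
  have h3 := hα ((mfderiv 𝓘(ℂ, Cm d) 𝓘(ℂ, Cm n) q v₀ : Cm d →L[ℂ] Cm n) η)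
    (slice_ker hf hq (by filter_upwards [hfq] with v hv; rw [hv, hfx₁]) η)
  have h4 : ∀ k : Fin r, dif (Cm n) (fun z =>
      nTheta (Cm n) (Cm p) f e₀ (U k.succ) z /
        nTheta (Cm n) (Cm p) f e₀ (U 0) z) x₁
      ((mfderiv 𝓘(ℂ, Cm d) 𝓘(ℂ, Cm n) q v₀ : Cm d →L[ℂ] Cm n) η) =
      (Pi.single k₀ (1 : ℂ) : Fin r → ℂ) k := by
    intro k
    have h5 : (fun v => ncoef (fun i b v => u k.succ i b (q v)) v /
        ncoef (fun i b v => u 0 i b (q v)) v) =ᶠ[𝓝 v₀]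
        fun v => nTheta (Cm n) (Cm p) f e₀ (U k.succ) (q v) /
          nTheta (Cm n) (Cm p) f e₀ (U 0) (q v) := by
      filter_upwards [hval, hℓu] with v h6 h7
      obtain ⟨J, hJ, hJe⟩ := h6
      rw [hJe, hJe, mul_div_mul_right _ _ hJ, h7, h7]
    have h6 := (slice_fderiv hq (hratio k.succ)).2
    have h7 := h5.fderiv_eq (𝕜 := ℂ)
    rw [h6] at h7
    have h8 := congrFun hη k
    rw [← h8]
    exact (congrArg (fun L : Cm d →L[ℂ] ℂ => L η) h7).symm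
  rw [Finset.sum_congr rfl fun k _ => by rw [h4 k]] at h3
  simpa [Pi.single_apply] using h3

/-- From the forms of the family to the fibre. -/
theorem nrank_of_rk (hL : LFam (Cm n) (Cm p) f S 𝒟)
    (e₀ : Cm n ≃L[ℂ] (Cm p × (Fin d → ℂ)))
    {a : Fin (r + 1) → Fin N → Fin d → Set X → ℤ} {W : Fin (r + 1) → Fin N → Fin d → Y → Set Y}
    {U : Fin (r + 1) → Fin N → Fin d → Y → X → ℂ} (hN : 0 < N)
    (hU : ∀ s i b, ∀ y ∉ S, IsOpen (W s i b y) ∧ y ∈ W s i b y ∧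
      IsUnitOn (Cm n) f 𝒟 (a s i b) (W s i b y) (U s i b y))
    {x : X} (hx : f x ∉ S) (hx𝒟 : ∀ D ∈ 𝒟, x ∉ D)
    (h : RKAt (Cm n) (Cm p) f (fun s => nTheta (Cm n) (Cm p) f e₀ (U s)) x) :
    NRankAt (n := n) N d f 𝒟 a (f x) := by
  classical
  have hf := hL.hol
  obtain ⟨h1, h2, h3⟩ := h
  have h𝒟c : ∀ D ∈ 𝒟, IsClosed D := fun D hD => (hL.prime D hD).1
  obtain ⟨ζ, q, hζ, hinj, hq, hq0, hqe, hqz⟩ := exists_slice_s hf e₀ (hL.sub x hx)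
  set v₀ := ζ x with hv₀
  have hqt : Tendsto q (𝓝 v₀) (𝓝 x) := by
    have := hq.continuousAt.tendsto
    rwa [hq0] at this
  have hq' : ∀ᶠ v in 𝓝 v₀, ContMDiffAt 𝓘(ℂ, Fin d → ℂ) 𝓘(ℂ, Cm n) ω q v :=
    (contMDiffAt_iff_contMDiffAt_nhds (by simp)).1 hq
  have hgood : ∀ᶠ v in 𝓝 v₀, ContMDiffAt 𝓘(ℂ, Fin d → ℂ) 𝓘(ℂ, Cm n) ω q v ∧
      f (q v) = f x ∧ ζ (q v) = v ∧ HolV (Cm n) ζ (q v) ∧ ∀ D ∈ 𝒟, q v ∉ D := by
    filter_upwards [hq', hqe, hqt.eventually hζ.eventually, hqt.eventually (hL.off hx𝒟)]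
      with v h4 h5 h6 h7 using ⟨h4, h5.1, h5.2, h6, h7⟩
  -- the values along the slice
  have hval : ∀ᶠ v in 𝓝 v₀, ∀ s, nTheta (Cm n) (Cm p) f e₀ (U s) (q v) =
      ncoef (fun i b v => U s i b (f x) (q v)) v *
        JP e₀ (dM (Cm n) (Cm p) f (q v)) (dV (Cm n) ζ (q v)) ^ N := by
    filter_upwards [eventually_eventually_nhds.2 hgood] with v hv s
    obtain ⟨h4, h5, h6, h7, h8⟩ := hv.self_of_nhds
    have h9 : ∀ᶠ z in 𝓝 v, f (q z) = f (q v) := by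
      filter_upwards [hv] with z hz
      rw [hz.2.1, h5]
    have h10 : (dV (Cm n) ζ (q v)).comp
        (mfderiv 𝓘(ℂ, Fin d → ℂ) 𝓘(ℂ, Cm n) q v : (Fin d → ℂ) →L[ℂ] Cm n) =
        ContinuousLinearMap.id ℂ (Fin d → ℂ) := by
      rw [← (slice_fderiv h4 h7).2]
      have h11 : (fun z => ζ (q z)) =ᶠ[𝓝 v] fun z => z := hv.mono fun z hz => hz.2.2.1
      rw [h11.fderiv_eq]
      exact fderiv_fun_id
    have h11 : JP e₀ (dM (Cm n) (Cm p) f (q v)) (dV (Cm n) ζ (q v)) ^ N =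
        ∏ _i : Fin N, JP e₀ (dM (Cm n) (Cm p) f (q v)) (dV (Cm n) ζ (q v)) := by simp
    unfold nTheta ncoef
    rw [h11, ← Finset.prod_mul_distrib]
    refine Finset.prod_congr rfl fun i _ => ?_
    rw [hL.theta_slice e₀ (a := a s i) (W := W s i) (U := U s i) (fun b y hy => hU s i b y hy)
      h4 h9 h5 hx h8 h10, lrow_det]
  have hJ : ∀ᶠ v in 𝓝 v₀,
      JP e₀ (dM (Cm n) (Cm p) f (q v)) (dV (Cm n) ζ (q v)) ^ N ≠ 0 := by
    filter_upwards [hval, hqt.eventually h1] with v h4 h5 h6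
    refine h5 ?_
    rw [h4 0, h6, mul_zero]
  refine ⟨fun s i b => U s i b (f x),
    fun s i b => (hU s i b _ hx).2.2.at (hU s i b _ hx).2.1, q, v₀, hq,
    hqe.mono fun v hv => hv.1, fun D hD => by rw [hq0]; exact hx𝒟 D hD, ?_, ?_⟩
  · intro h0
    have h4 := hval.self_of_nhds 0
    rw [h0, zero_mul, hq0] at h4
    exact h1.self_of_nhds h4
  · have h4 : ∀ k : Fin r, (fun v => ncoef (fun i b v => U k.succ i b (f x) (q v)) v /
        ncoef (fun i b v => U 0 i b (f x) (q v)) v) =ᶠ[𝓝 v₀]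
        fun v => nTheta (Cm n) (Cm p) f e₀ (U k.succ) (q v) /
          nTheta (Cm n) (Cm p) f e₀ (U 0) (q v) := by
      intro k
      filter_upwards [hval, hJ] with v h6 h7
      rw [h6, h6, mul_div_mul_right _ _ h7]
    have hs := (rk_surj (hL.sub x hx) h2).1 h3
    intro c
    obtain ⟨ξ, hξ⟩ := hs (0, c)
    have hξ1 : dM (Cm n) (Cm p) f x ξ = 0 := (Prod.mk.inj hξ).1
    have hξ2 : dV (Cm n) (vec fun (k : Fin r) z => nTheta (Cm n) (Cm p) f e₀ (U k.succ) z /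
        nTheta (Cm n) (Cm p) f e₀ (U 0) z) x ξ = c := (Prod.mk.inj hξ).2
    set t : (Fin d → ℂ) →L[ℂ] Cm n := mfderiv 𝓘(ℂ, Fin d → ℂ) 𝓘(ℂ, Cm n) q v₀ with ht
    have hfq : ∀ᶠ z in 𝓝 v₀, f (q z) = f (q v₀) := by
      rw [hq0]
      exact hqe.mono fun z hz => hz.1
    have hAt : ∀ w, dM (Cm n) (Cm p) f x (t w) = 0 := by
      intro w
      have := slice_ker hf hq hfq w
      rwa [hq0] at this
    have hPt : ∀ w, dV (Cm n) ζ x (t w) = w := by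
      intro w
      have hζq : HolV (Cm n) ζ (q v₀) := by rw [hq0]; exact hζ
      have h5 := (slice_fderiv hq hζq).2
      rw [hq0] at h5
      have h6 : fderiv ℂ (fun z => ζ (q z)) v₀ = ContinuousLinearMap.id ℂ (Fin d → ℂ) := by
        have : (fun z => ζ (q z)) =ᶠ[𝓝 v₀] fun z => z := hqe.mono fun z hz => hz.2
        rw [this.fderiv_eq]
        exact fderiv_fun_id
      exact congrArg (fun L : (Fin d → ℂ) →L[ℂ] (Fin d → ℂ) => L w) (h5.symm.trans h6)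
    have h5 : t (dV (Cm n) ζ x ξ) = ξ := frame_ker e₀ (hL.sub x hx) hAt hPt hξ1
    refine ⟨dV (Cm n) ζ x ξ, ?_⟩
    funext k
    have h6 : HolV (Cm n) (fun z => nTheta (Cm n) (Cm p) f e₀ (U k.succ) z /
        nTheta (Cm n) (Cm p) f e₀ (U 0) z) (q v₀) := by
      rw [hq0]
      exact h2 k.succ
    have h7 := (slice_fderiv hq h6).2
    have h8 := (h4 k).fderiv_eq (𝕜 := ℂ)
    rw [h7, hq0] at h8
    have h9 : fderiv ℂ (fun v => ncoef (fun i b v => U k.succ i b (f x) (q v)) v /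
        ncoef (fun i b v => U 0 i b (f x) (q v)) v) v₀ (dV (Cm n) ζ x ξ) =
        dV (Cm n) (fun z => nTheta (Cm n) (Cm p) f e₀ (U k.succ) z /
          nTheta (Cm n) (Cm p) f e₀ (U 0) z) x (t (dV (Cm n) ζ x ξ)) :=
      congrArg (fun L : (Fin d → ℂ) →L[ℂ] ℂ => L (dV (Cm n) ζ x ξ)) h8
    show fderiv ℂ (fun v => ncoef (fun i b v => U k.succ i b (f x) (q v)) v /
        ncoef (fun i b v => U 0 i b (f x) (q v)) v) v₀ (dV (Cm n) ζ x ξ) = c k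
    rw [h9, h5, ← hξ2]
    exact (dV_vec (fun k => h2 k.succ) ξ k).symm

/-- **The rank is open in `Y`.** -/
theorem nrank_open (hL : LFam (Cm n) (Cm p) f S 𝒟) (hN : 0 < N)
    (e₀ : Cm n ≃L[ℂ] (Cm p × (Fin d → ℂ)))
    {a : Fin (r + 1) → Fin N → Fin d → Set X → ℤ}
    (hfam : ∀ s i b, ∀ y₀ ∉ S, ∃ (W : Set Y) (U : X → ℂ), IsOpen W ∧ y₀ ∈ W ∧
      IsUnitOn (Cm n) f 𝒟 (a s i b) W U) {y : Y} (hy : y ∉ S)
    (h : NRankAt (n := n) N d f 𝒟 a y) : ∀ᶠ y' in 𝓝 y, NRankAt (n := n) N d f 𝒟 a y' := by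
  classical
  have h0 : ∀ s i b, ∃ (W : Set Y) (U : X → ℂ), IsOpen W ∧ y ∈ W ∧
      IsUnitOn (Cm n) f 𝒟 (a s i b) W U := fun s i b => hfam s i b y hy
  choose W U hW hyW hU using h0
  set W₀ : Set Y := Sᶜ ∩ ⋂ s, ⋂ i, ⋂ b, W s i b with hW₀
  have hW₀o : IsOpen W₀ := by
    refine hL.closed.isOpen_compl.inter ?_
    exact isOpen_iInter_of_finite fun s => isOpen_iInter_of_finite fun i =>
      isOpen_iInter_of_finite fun b => hW s i b
  have hyW₀ : y ∈ W₀ :=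
    ⟨hy, mem_iInter.2 fun s => mem_iInter.2 fun i => mem_iInter.2 fun b => hyW s i b⟩
  have hmem : ∀ y', y' ∉ W₀ᶜ → y' ∉ S ∧ ∀ s i b, y' ∈ W s i b := by
    intro y' hy'
    have h1 : y' ∈ W₀ := not_not.1 hy'
    exact ⟨h1.1, fun s i b => mem_iInter.1 (mem_iInter.1 (mem_iInter.1 h1.2 s) i) b⟩
  have hL' : LFam (Cm n) (Cm p) f W₀ᶜ 𝒟 :=
    { hol := hL.hol
      closed := hW₀o.isClosed_compl
      sub := fun x hx => hL.sub x (hmem _ hx).1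
      conn := fun y hy => hL.conn y (hmem _ hy).1
      cpt := fun y hy => hL.cpt y (hmem _ hy).1
      prime := hL.prime
      not_sub := fun D hD y hy => hL.not_sub D hD y (hmem _ hy).1 }
  have hU' : ∀ s i b, ∀ y' ∉ W₀ᶜ, IsOpen (W s i b) ∧ y' ∈ W s i b ∧
      IsUnitOn (Cm n) f 𝒟 (a s i b) (W s i b) (U s i b) := fun s i b y' hy' =>
    ⟨hW s i b, (hmem y' hy').2 s i b, hU s i b⟩
  obtain ⟨x₁, hfx₁, hx₁, hrk⟩ := nrk_of hL' hN e₀ (W := fun s i b _ => W s i b)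
    (U := fun s i b _ => U s i b) hU' (fun h1 => h1 hyW₀) h
  have h1 : ∀ᶠ x in 𝓝 x₁, NRankAt (n := n) N d f 𝒟 a (f x) := by
    have h2 : f x₁ ∈ W₀ := by rw [hfx₁]; exact hyW₀
    filter_upwards [hrk.near hL.hol (hL.sub x₁ (by rw [hfx₁]; exact hy)), hL.off hx₁,
      (hL.hol x₁).continuousAt.eventually (hW₀o.mem_nhds h2)] with x h3 h4 h5
    exact nrank_of_rk hL' e₀ (W := fun s i b _ => W s i b) (U := fun s i b _ => U s i b) hN hU'
      (fun h6 => h6 h5) h4 h3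
  have h2 := H713.SA.nhds_le_map (hL.hol x₁) (hL.sub x₁ (by rw [hfx₁]; exact hy))
  rw [hfx₁] at h2
  exact h2 h1

end Rk

/-- **B7** -/
theorem hasNStmt : HasNStmt := by
  intro p d r N X Y _ _ _ _ _ _ _ _ 𝒯 f S 𝒟 a e₀ Δ hd hN hfc hS hfib h𝒟 hne hΔ0 hΔ1 hfam hbd y
    hy hrank
  classical
  have hL : LFam (Cm (p + d)) (Cm p) f S 𝒟 :=
    { hol := fun x => hfc.contMDiffAt
      closed := hS
      sub := hfib.submersive
      conn := fun y hy => (hfib.connected y hy).isPreconnected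
      cpt := fun y hy => hfib.proper {y} isCompact_singleton (by simpa using hy)
      prime := h𝒟
      not_sub := hne }
  have h1 : ∀ s i b (y : Y), ∃ (W : Set Y) (U : X → ℂ), y ∉ S →
      IsOpen W ∧ y ∈ W ∧ IsUnitOn (Cm (p + d)) f 𝒟 (a s i b) W U := by
    intro s i b y
    by_cases hy : y ∉ S
    · obtain ⟨W, U, h⟩ := hfam s i b y hy
      exact ⟨W, U, fun _ => h⟩
    · exact ⟨∅, fun _ => 0, fun h => absurd h hy⟩
  choose W U hU using h1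
  have hrel := fun s => nrelForm hL e₀ (a := a) s (W := W s) (U := U s)
    (fun i b y hy => hU s i b y hy) (hbd s)
  obtain ⟨x₁, hfx₁, -, h2, h3, h4⟩ := nrk_of hL hN e₀ (W := W) (U := U)
    (fun s i b y hy => hU s i b y hy) hy hrank
  exact ⟨N, (𝒟 : Set (Set X)), kapN 𝒟 a, nTheta (Cm (p + d)) (Cm p) f e₀ (U 0),
    fun k => nTheta (Cm (p + d)) (Cm p) f e₀ (U k.succ), hN, 𝒟.finite_toSet,
    fun D hD => h𝒟 D (Finset.mem_coe.1 hD), hrel 0, fun k => hrel k.succ,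
    kapN_le a hΔ0 hΔ1, x₁, hfx₁, h2, fun k => h3 k.succ, h4⟩

end Vale.Agent.P281.H969.TLN
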